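import Vale.Agent.P110.Main

/-! Flatness of Littlewood polynomials of the form `A(z) B(z^l)`. -/

namespace Vale.Agent.Results.P110.KroneckerProducts

open Vale.Agent.P110

theorem result :
    (∀ (l : ℕ) (a b : ℕ → ℝ) (m : ℕ) (z : ℂ), 0 < l →
      ev (kron l a b) (l * m) z = ev a l z * ev b m (z ^ l)) ∧
    (∀ (a b : ℕ → ℝ) (l m : ℕ), 2 ≤ l → 2 ≤ m → IsLittlewood a l → IsLittlewood b m →
      ∀ c : ℝ, 0 ≤ c → c < 1 → Flat (kron l a b) (l * m) c →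
        Flat b m c ∧
        (∀ z : ℂ, ‖z‖ = 1 → (1 - c) / (1 + c) * Real.sqrt l ≤ ‖ev a l z‖ ∧
          ‖ev a l z‖ ≤ (1 + c) / (1 - c) * Real.sqrt l) ∧
        1 ≤ (((1 + c) / (1 - c)) ^ 2 - 1) * l ∧ 1 ≤ (((1 + c) / (1 - c)) ^ 2 - 1) * m) ∧
    (∀ (a b : ℕ → ℕ → ℝ) (l m : ℕ → ℕ), (∀ k, IsLittlewood (a k) (l k)) →
      (∀ k, IsLittlewood (b k) (m k)) → (∀ k, 2 ≤ l k) → (∀ k, 2 ≤ m k) →
      Ultraflat (fun k => kron (l k) (a k) (b k)) (fun k => l k * m k) →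
      Ultraflat a l ∧ Ultraflat b m) :=
  ⟨fun _ a b m z hl => ev_kron hl a b m z,
    fun _ _ _ _ hl hm ha hb _ h0 h1 h =>
      ⟨flat_right h0 h1 (by omega) ha h,
        fun _ hz => flat_left h0 h1 (by omega) (by omega) ha h hz,
        kron_bounds h0 h1 hl hm ha hb h⟩,
    fun _ _ _ _ ha hb hl hm h => ultraflat_factors ha hb hl hm h⟩

end Vale.Agent.Results.P110.KroneckerProducts
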